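import Mathlib

open MeasureTheory ProbabilityTheory Real
open scoped RealInnerProductSpace ENNReal NNReal

namespace Vale.Agent.P226

variable {E : Type*} [NormedAddCommGroup E] [InnerProductSpace ℝ E] [FiniteDimensional ℝ E]
  [MeasurableSpace E] [BorelSpace E]

lemma norm_sq_moment (A : Set E) :
    ‖∫ x in A, x ∂stdGaussian E‖ ^ 2
      = ∫ x in A, ⟪∫ y in A, y ∂stdGaussian E, x⟫ ∂stdGaussian E := by
  have hint : Integrable (fun x : E => x) ((stdGaussian E).restrict A) :=
    (IsGaussian.integrable_id (μ := stdGaussian E)).restrict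
  rw [integral_inner hint, real_inner_self_eq_norm_sq]

lemma map_inner (z : E) :
    (stdGaussian E).map (fun x => ⟪z, x⟫) = gaussianReal 0 (‖z‖ ^ 2).toNNReal := by
  have h := IsGaussian.map_eq_gaussianReal (μ := stdGaussian E) (innerSL ℝ z)
  rw [integral_strongDual_stdGaussian, variance_dual_stdGaussian, innerSL_apply_norm] at h
  exact h

lemma integral_exp_inner (z : E) (t : ℝ) :
    ∫ x, rexp (t * ⟪z, x⟫) ∂stdGaussian E = rexp (‖z‖ ^ 2 * t ^ 2 / 2) := by
  have h := mgf_gaussianReal (map_inner z) t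
  rw [mgf] at h
  rw [h]
  simp

lemma integrable_exp_inner (z : E) (t : ℝ) :
    Integrable (fun x => rexp (t * ⟪z, x⟫)) (stdGaussian E) := by
  have h := integrable_exp_mul_gaussianReal (μ := 0) (v := (‖z‖ ^ 2).toNNReal) t
  rw [← map_inner z] at h
  exact (integrable_map_measure h.aestronglyMeasurable (by fun_prop)).1 h

lemma integrable_inner (z : E) : Integrable (fun x => ⟪z, x⟫) (stdGaussian E) :=
  IsGaussian.integrable_dual (stdGaussian E) (innerSL ℝ z)

lemma integrable_inner_sq (z : E) : Integrable (fun x => ⟪z, x⟫ ^ 2) (stdGaussian E) :=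
  (IsGaussian.memLp_dual (stdGaussian E) (innerSL ℝ z) 2 (by norm_num)).integrable_sq

lemma integral_inner_sq (z : E) : ∫ x, ⟪z, x⟫ ^ 2 ∂stdGaussian E = ‖z‖ ^ 2 := by
  have h := variance_dual_stdGaussian (E := E) (innerSL ℝ z)
  rw [variance_of_integral_eq_zero (by fun_prop) (integral_strongDual_stdGaussian _),
    innerSL_apply_norm] at h
  exact h

lemma map_neg_stdGaussian : (stdGaussian E).map (fun x => -x) = stdGaussian E :=
  stdGaussian_map (LinearIsometryEquiv.neg ℝ)

lemma integrable_pos_sq (z : E) : Integrable (fun x => (max ⟪z, x⟫ 0) ^ 2) (stdGaussian E) := by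
  refine (integrable_inner_sq z).mono (by fun_prop) (Filter.Eventually.of_forall (fun x => ?_))
  rw [Real.norm_of_nonneg (by positivity), Real.norm_of_nonneg (by positivity)]
  rcases le_total ⟪z, x⟫ 0 with h | h
  · rw [max_eq_right h]
    have := sq_nonneg ⟪z, x⟫
    simpa using this
  · rw [max_eq_left h]

lemma integral_pos_sq (z : E) :
    ∫ x, (max ⟪z, x⟫ 0) ^ 2 ∂stdGaussian E = ‖z‖ ^ 2 / 2 := by
  have h1 : ∫ x, (max ⟪z, -x⟫ 0) ^ 2 ∂stdGaussian E = ∫ x, (max ⟪z, x⟫ 0) ^ 2 ∂stdGaussian E := by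
    conv_rhs => rw [← map_neg_stdGaussian (E := E)]
    rw [integral_map (by fun_prop) (by fun_prop)]
  have h2 : ∫ x, ⟪z, x⟫ ^ 2 ∂stdGaussian E
      = ∫ x, (max ⟪z, x⟫ 0) ^ 2 ∂stdGaussian E + ∫ x, (max ⟪z, -x⟫ 0) ^ 2 ∂stdGaussian E := by
    rw [← integral_add (integrable_pos_sq z)]
    · refine integral_congr_ae (Filter.Eventually.of_forall (fun x => ?_))
      simp only [inner_neg_right]
      rcases le_total ⟪z, x⟫ 0 with h | h
      · rw [max_eq_right h, max_eq_left (by linarith)]
        ring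
      · rw [max_eq_left h, max_eq_right (by linarith)]
        ring
    · have := integrable_pos_sq (-z)
      simpa using this
  rw [integral_inner_sq, h1] at h2
  linarith

/-- the first moment of a cell: square norm at most half the measure -/
lemma cell_half (A : Set E) :
    ‖∫ x in A, x ∂stdGaussian E‖ ^ 2 ≤ (stdGaussian E).real A / 2 := by
  set z := ∫ x in A, x ∂stdGaussian E with hz
  have h1 : ∫ x in A, ⟪z, x⟫ ∂stdGaussian E
      ≤ ∫ x in A, (1 / 4 + (max ⟪z, x⟫ 0) ^ 2) ∂stdGaussian E := by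
    refine integral_mono (integrable_inner z).restrict
      ((integrable_const _).add (integrable_pos_sq z).restrict) (fun x => ?_)
    rcases le_total ⟪z, x⟫ 0 with h | h
    · rw [max_eq_right h]
      simp only []
      linarith
    · rw [max_eq_left h]
      simp only []
      nlinarith [sq_nonneg (⟪z, x⟫ - 1 / 2)]
  rw [integral_add (integrable_const _) (integrable_pos_sq z).restrict] at h1
  have h2 : ∫ x in A, (max ⟪z, x⟫ 0) ^ 2 ∂stdGaussian E ≤ ‖z‖ ^ 2 / 2 := by
    rw [← integral_pos_sq z]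
    exact setIntegral_le_integral (integrable_pos_sq z)
      (Filter.Eventually.of_forall (fun x => by positivity))
  have h3 := norm_sq_moment A
  rw [← hz] at h3
  rw [← h3] at h1
  simp only [integral_const, smul_eq_mul, measureReal_restrict_apply_univ] at h1
  linarith

/-- the level-one inequality for the first moment of a cell -/
lemma cell_level_one (A : Set E) (ha : 0 < (stdGaussian E).real A) :
    ‖∫ x in A, x ∂stdGaussian E‖ ^ 2
      ≤ 2 * (stdGaussian E).real A ^ 2 * Real.log (1 / (stdGaussian E).real A) := by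
  set z := ∫ x in A, x ∂stdGaussian E with hz
  set a := (stdGaussian E).real A with haa
  set K : ℝ := rexp (‖z‖ ^ 2 * (1 / a) ^ 2 / 2) / a with hK
  have hKpos : 0 < K := by positivity
  have h1 : ∫ x in A, (1 / a) * ⟪z, x⟫ ∂stdGaussian E
      ≤ ∫ x in A, ((Real.log K - 1) + rexp ((1 / a) * ⟪z, x⟫) / K) ∂stdGaussian E := by
    refine integral_mono ((integrable_inner z).const_mul _).restrict
      ((integrable_const _).add ((integrable_exp_inner z (1 / a)).div_const K).restrict)
      (fun x => ?_)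
    have h := Real.log_le_sub_one_of_pos (x := rexp ((1 / a) * ⟪z, x⟫) / K) (by positivity)
    rw [Real.log_div (by positivity) hKpos.ne', Real.log_exp] at h
    simp only []
    linarith
  rw [integral_add (integrable_const _) ((integrable_exp_inner z (1 / a)).div_const K).restrict,
    integral_const_mul, integral_div] at h1
  have h2 : ∫ x in A, rexp ((1 / a) * ⟪z, x⟫) ∂stdGaussian E
      ≤ rexp (‖z‖ ^ 2 * (1 / a) ^ 2 / 2) := by
    rw [← integral_exp_inner z]
    exact setIntegral_le_integral (integrable_exp_inner z (1 / a))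
      (Filter.Eventually.of_forall (fun x => by positivity))
  have h3 := norm_sq_moment A
  rw [← hz] at h3
  rw [← h3] at h1
  simp only [integral_const, smul_eq_mul, measureReal_restrict_apply_univ] at h1
  rw [← haa] at h1
  have h4 : (∫ x in A, rexp ((1 / a) * ⟪z, x⟫) ∂stdGaussian E) / K ≤ a := by
    rw [div_le_iff₀ hKpos, hK]
    have : a * (rexp (‖z‖ ^ 2 * (1 / a) ^ 2 / 2) / a) = rexp (‖z‖ ^ 2 * (1 / a) ^ 2 / 2) := by
      field_simp
    rw [this]
    exact h2
  have h5 : Real.log K = ‖z‖ ^ 2 * (1 / a) ^ 2 / 2 + Real.log (1 / a) := by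
    rw [hK, Real.log_div (by positivity) ha.ne', Real.log_exp, one_div, Real.log_inv]
    ring
  rw [h5] at h1
  have h6 : 1 / a * ‖z‖ ^ 2 ≤ a * (‖z‖ ^ 2 * (1 / a) ^ 2 / 2 + Real.log (1 / a)) := by linarith
  have h7 : a * (‖z‖ ^ 2 * (1 / a) ^ 2 / 2) = 1 / a * ‖z‖ ^ 2 / 2 := by
    field_simp
  have h8 : 1 / a * ‖z‖ ^ 2 / 2 ≤ a * Real.log (1 / a) := by
    rw [mul_add, h7] at h6
    linarith
  have h9 : (2 * a) * (1 / a * ‖z‖ ^ 2 / 2) ≤ (2 * a) * (a * Real.log (1 / a)) :=
    mul_le_mul_of_nonneg_left h8 (by positivity)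
  have h10 : (2 * a) * (1 / a * ‖z‖ ^ 2 / 2) = ‖z‖ ^ 2 := by field_simp
  rw [h10] at h9
  calc ‖z‖ ^ 2 ≤ (2 * a) * (a * Real.log (1 / a)) := h9
    _ = 2 * a ^ 2 * Real.log (1 / a) := by ring

end Vale.Agent.P226
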