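import Mathlib

open MeasureTheory ProbabilityTheory Real Set
open scoped ENNReal NNReal

namespace Vale.Agent.P226

lemma exp_neg_le_quad (u : ℝ) (hu : 0 ≤ u) : rexp (-u) ≤ 1 - u + u ^ 2 / 2 := by
  have h1 : 1 + u + u ^ 2 / 2 ≤ rexp u := Real.quadratic_le_exp_of_nonneg hu
  have hpos : 0 < 1 + u + u ^ 2 / 2 := by positivity
  rw [Real.exp_neg]
  have h2 : (rexp u)⁻¹ ≤ (1 + u + u ^ 2 / 2)⁻¹ := inv_anti₀ hpos h1
  refine h2.trans ?_
  rw [inv_le_iff_one_le_mul₀ hpos]
  nlinarith [sq_nonneg (u ^ 2)]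

lemma pdf_eq (x : ℝ) : gaussianPDFReal 0 1 x = (√(2 * π))⁻¹ * rexp (-(x ^ 2 / 2)) := by
  simp [gaussianPDFReal, neg_div]

lemma integral_Ioi_mul_exp : ∫ r in Ioi (0 : ℝ), r * rexp (-(r ^ 2 / 2)) = 1 := by
  have hderiv : ∀ x ∈ Ici (0 : ℝ), HasDerivAt (fun r => - rexp (-(r ^ 2 / 2)))
      (x * rexp (-(x ^ 2 / 2))) x := by
    intro x _
    have h1 : HasDerivAt (fun r : ℝ => -(r ^ 2 / 2)) (-x) x := by
      have := ((hasDerivAt_pow 2 x).div_const 2).fun_neg
      exact this.congr_deriv (by simp)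
    have h2 := h1.exp.fun_neg
    exact h2.congr_deriv (by ring)
  have hint : IntegrableOn (fun r : ℝ => r * rexp (-(r ^ 2 / 2))) (Ioi 0) := by
    have := (integrable_mul_exp_neg_mul_sq (b := 1 / 2) (by norm_num)).integrableOn (s := Ioi 0)
    refine this.congr (Filter.Eventually.of_forall (fun x => ?_))
    simp only []
    congr 2
    ring
  have htend : Filter.Tendsto (fun r : ℝ => - rexp (-(r ^ 2 / 2))) Filter.atTop (nhds (-0)) := by
    apply Filter.Tendsto.neg
    apply Real.tendsto_exp_atBot.comp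
    apply Filter.tendsto_neg_atTop_atBot.comp
    apply Filter.Tendsto.atTop_div_const (by norm_num)
    exact Filter.tendsto_pow_atTop (by norm_num)
  have := integral_Ioi_of_hasDerivAt_of_tendsto' hderiv hint htend
  rw [this]
  simp

lemma integral_abs_gaussian : ∫ t, |t| ∂(gaussianReal 0 1) = 2 * (√(2 * π))⁻¹ := by
  rw [integral_gaussianReal_eq_integral_smul (by norm_num)]
  have h1 : ∀ x : ℝ, gaussianPDFReal 0 1 x • |x|
      = (fun r : ℝ => (√(2 * π))⁻¹ * (r * rexp (-(r ^ 2 / 2)))) |x| := by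
    intro x
    simp only [pdf_eq, smul_eq_mul, sq_abs]
    ring
  simp_rw [h1]
  rw [integral_comp_abs (f := fun r : ℝ => (√(2 * π))⁻¹ * (r * rexp (-(r ^ 2 / 2)))),
    integral_const_mul, integral_Ioi_mul_exp]
  ring

lemma integral_tent_gaussian (s : ℝ) (hs : 0 ≤ s) :
    ∫ t, max (s - |t|) 0 ∂(gaussianReal 0 1)
      ≤ 2 * ((√(2 * π))⁻¹ * (s ^ 2 / 2 - s ^ 4 / 24 + s ^ 6 / 240)) := by
  rw [integral_gaussianReal_eq_integral_smul (by norm_num)]
  have h1 : ∀ x : ℝ, gaussianPDFReal 0 1 x • max (s - |x|) 0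
      = (fun r : ℝ => (√(2 * π))⁻¹ * (rexp (-(r ^ 2 / 2)) * max (s - r) 0)) |x| := by
    intro x
    simp only [pdf_eq, smul_eq_mul, sq_abs]
    ring
  simp_rw [h1]
  rw [integral_comp_abs (f := fun r : ℝ => (√(2 * π))⁻¹ * (rexp (-(r ^ 2 / 2)) * max (s - r) 0)),
    integral_const_mul]
  have hc : 0 ≤ (√(2 * π))⁻¹ := by positivity
  refine mul_le_mul_of_nonneg_left (mul_le_mul_of_nonneg_left ?_ hc) (by norm_num)
  have h2 : ∫ r in Ioi (0 : ℝ), rexp (-(r ^ 2 / 2)) * max (s - r) 0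
      = ∫ r in Ioc (0 : ℝ) s, rexp (-(r ^ 2 / 2)) * max (s - r) 0 := by
    refine setIntegral_eq_of_subset_of_forall_sdiff_eq_zero measurableSet_Ioi
      Ioc_subset_Ioi_self (fun x hx => ?_)
    have hx1 : 0 < x := hx.1
    have hx2 : s < x := by
      by_contra hcon
      exact hx.2 ⟨hx1, not_lt.1 hcon⟩
    rw [max_eq_right (by linarith), mul_zero]
  rw [h2, ← intervalIntegral.integral_of_le hs]
  have h3 : ∫ r in (0 : ℝ)..s, rexp (-(r ^ 2 / 2)) * max (s - r) 0
      ≤ ∫ r in (0 : ℝ)..s, (1 - r ^ 2 / 2 + r ^ 4 / 8) * (s - r) := by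
    refine intervalIntegral.integral_mono_on hs ?_ ?_ (fun x hx => ?_)
    · exact Continuous.intervalIntegrable (by fun_prop) _ _
    · exact Continuous.intervalIntegrable (by fun_prop) _ _
    · rw [max_eq_left (by linarith [hx.2])]
      refine mul_le_mul_of_nonneg_right ?_ (by linarith [hx.2])
      have := exp_neg_le_quad (x ^ 2 / 2) (by positivity)
      calc rexp (-(x ^ 2 / 2)) ≤ 1 - x ^ 2 / 2 + (x ^ 2 / 2) ^ 2 / 2 := this
        _ = 1 - x ^ 2 / 2 + x ^ 4 / 8 := by ring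
  refine h3.trans (le_of_eq ?_)
  have h4 : ∀ r : ℝ, (1 - r ^ 2 / 2 + r ^ 4 / 8) * (s - r)
      = s - r - s / 2 * r ^ 2 + 1 / 2 * r ^ 3 + s / 8 * r ^ 4 - 1 / 8 * r ^ 5 := by
    intro r
    ring
  simp_rw [h4]
  rw [intervalIntegral.integral_sub, intervalIntegral.integral_add, intervalIntegral.integral_add,
    intervalIntegral.integral_sub, intervalIntegral.integral_sub]
  · simp only [intervalIntegral.integral_const_mul, integral_pow, integral_id,
      intervalIntegral.integral_const, smul_eq_mul]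
    norm_num
    ring
  all_goals exact Continuous.intervalIntegrable (by fun_prop) _ _

lemma integrable_id_g : Integrable (fun t : ℝ => t) (gaussianReal 0 1) :=
  IsGaussian.integrable_id (μ := gaussianReal 0 1)

/-- upper bound for `E (t - s)_+` under the standard normal law -/
lemma psi_bound (s : ℝ) (hs : 0 ≤ s) :
    ∫ t, max (t - s) 0 ∂(gaussianReal 0 1)
      ≤ (√(2 * π))⁻¹ * (1 + s ^ 2 / 2 - s ^ 4 / 24 + s ^ 6 / 240) - s / 2 := by
  have i1 : Integrable (fun t : ℝ => max (t - s) 0) (gaussianReal 0 1) :=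
    (integrable_id_g.sub (integrable_const s)).pos_part
  have i2 : Integrable (fun t : ℝ => max (-t - s) 0) (gaussianReal 0 1) :=
    (integrable_id_g.neg.sub (integrable_const s)).pos_part
  have i3 : Integrable (fun t : ℝ => |t|) (gaussianReal 0 1) := integrable_id_g.abs
  have i4 : Integrable (fun t : ℝ => max (s - |t|) 0) (gaussianReal 0 1) :=
    ((integrable_const s).sub i3).pos_part
  have hsym : ∫ t, max (-t - s) 0 ∂(gaussianReal 0 1) = ∫ t, max (t - s) 0 ∂(gaussianReal 0 1) := by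
    have hmap : (gaussianReal 0 1).map (fun x => -x) = gaussianReal 0 1 := by
      rw [gaussianReal_map_neg, neg_zero]
    conv_rhs => rw [← hmap]
    rw [integral_map (by fun_prop) (by fun_prop)]
  have hpt : ∀ t : ℝ, max (t - s) 0 + max (-t - s) 0 = |t| - s + max (s - |t|) 0 := by
    intro t
    rcases le_total 0 t with ht | ht
    · rw [abs_of_nonneg ht, max_eq_right (show -t - s ≤ 0 by linarith)]
      rcases le_total s t with h | h
      · rw [max_eq_left (show 0 ≤ t - s by linarith), max_eq_right (show s - t ≤ 0 by linarith)]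
      · rw [max_eq_right (show t - s ≤ 0 by linarith), max_eq_left (show 0 ≤ s - t by linarith)]
        ring
    · rw [abs_of_nonpos ht, max_eq_right (show t - s ≤ 0 by linarith)]
      rcases le_total s (-t) with h | h
      · rw [max_eq_left (show 0 ≤ -t - s by linarith), max_eq_right (show s - -t ≤ 0 by linarith)]
        ring
      · rw [max_eq_right (show -t - s ≤ 0 by linarith), max_eq_left (show 0 ≤ s - -t by linarith)]
        ring
  have hsum : ∫ t, max (t - s) 0 ∂(gaussianReal 0 1) + ∫ t, max (-t - s) 0 ∂(gaussianReal 0 1)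
      = ∫ t, |t| ∂(gaussianReal 0 1) - s + ∫ t, max (s - |t|) 0 ∂(gaussianReal 0 1) := by
    rw [← integral_add i1 i2]
    simp_rw [hpt]
    have i5 : Integrable (fun t : ℝ => |t| - s) (gaussianReal 0 1) := i3.sub (integrable_const s)
    rw [integral_add i5 i4, integral_sub i3 (integrable_const s)]
    simp
  rw [hsym, integral_abs_gaussian] at hsum
  have h5 := integral_tent_gaussian s hs
  have : (√(2 * π))⁻¹ * (1 + s ^ 2 / 2 - s ^ 4 / 24 + s ^ 6 / 240)
      = (√(2 * π))⁻¹ + (√(2 * π))⁻¹ * (s ^ 2 / 2 - s ^ 4 / 24 + s ^ 6 / 240) := by ring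
  rw [this]
  linarith

lemma inv_sqrt_two_pi_le : (√(2 * π))⁻¹ ≤ 0.398943 := by
  have h1 : (2.506624 : ℝ) ≤ √(2 * π) := by
    apply Real.le_sqrt_of_sq_le
    have := Real.pi_gt_d6
    norm_num
    linarith
  have h2 : (√(2 * π))⁻¹ ≤ (2.506624 : ℝ)⁻¹ := inv_anti₀ (by norm_num) h1
  refine h2.trans ?_
  norm_num

end Vale.Agent.P226
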