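import Mathlib
import Vale.Agent.P226.Cell
import Vale.Agent.P226.OneDim

open MeasureTheory ProbabilityTheory Real
open scoped RealInnerProductSpace ENNReal NNReal

namespace Vale.Agent.P226

variable {E : Type*} [NormedAddCommGroup E] [InnerProductSpace ℝ E] [FiniteDimensional ℝ E]
  [MeasurableSpace E] [BorelSpace E]

/-- numerical upper bound for `E (t - s)_+` -/
noncomputable def psiBar (s : ℝ) : ℝ :=
  0.398943 * (1 + s ^ 2 / 2 - s ^ 4 / 24 + s ^ 6 / 240) - s / 2

lemma poly_nonneg (s : ℝ) : 0 ≤ 1 + s ^ 2 / 2 - s ^ 4 / 24 + s ^ 6 / 240 := by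
  nlinarith [sq_nonneg (s ^ 2), sq_nonneg (s ^ 3 - 5 * s), sq_nonneg s, sq_nonneg (s ^ 2 - 6)]

lemma psi_le_psiBar (s : ℝ) (hs : 0 ≤ s) :
    ∫ t, max (t - s) 0 ∂(gaussianReal 0 1) ≤ psiBar s := by
  refine (psi_bound s hs).trans ?_
  unfold psiBar
  have := mul_le_mul_of_nonneg_right inv_sqrt_two_pi_le (poly_nonneg s)
  linarith

lemma cell_shift (A : Set E) (s : ℝ) (hs : 0 ≤ s) :
    ‖∫ x in A, x ∂stdGaussian E‖ ≤ s * (stdGaussian E).real A + psiBar s := by
  set z := ∫ x in A, x ∂stdGaussian E with hz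
  have hpsi0 : 0 ≤ psiBar s :=
    le_trans (integral_nonneg (fun t => le_max_right _ _)) (psi_le_psiBar s hs)
  rcases eq_or_ne z 0 with h0 | hne
  · rw [h0, norm_zero]
    have : 0 ≤ s * (stdGaussian E).real A := mul_nonneg hs measureReal_nonneg
    linarith
  have hnpos : 0 < ‖z‖ := norm_pos_iff.2 hne
  set u : E := ‖z‖⁻¹ • z with hu
  have hu1 : ‖u‖ = 1 := by
    rw [hu, norm_smul, norm_inv, norm_norm, inv_mul_cancel₀ hnpos.ne']
  have hlaw : (stdGaussian E).map (fun x => ⟪u, x⟫) = gaussianReal 0 1 := by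
    rw [map_inner u, hu1]
    simp
  have hI : Integrable (fun x : E => max (⟪u, x⟫ - s) 0) (stdGaussian E) :=
    ((integrable_inner u).sub (integrable_const s)).pos_part
  have h1 : ∫ x in A, ⟪u, x⟫ ∂stdGaussian E = ‖z‖ := by
    have h3 := norm_sq_moment A
    rw [← hz] at h3
    have : ∀ x : E, ⟪u, x⟫ = ‖z‖⁻¹ * ⟪z, x⟫ := by
      intro x
      rw [hu, real_inner_smul_left]
    simp_rw [this]
    rw [integral_const_mul, ← h3]
    field_simp
  have h2 : ∫ x in A, ⟪u, x⟫ ∂stdGaussian E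
      ≤ ∫ x in A, (s + max (⟪u, x⟫ - s) 0) ∂stdGaussian E := by
    refine integral_mono (integrable_inner u).restrict
      ((integrable_const _).add hI.restrict) (fun x => ?_)
    have := le_max_left (⟪u, x⟫ - s) 0
    simp only []
    linarith
  rw [integral_add (integrable_const _) hI.restrict] at h2
  have h4 : ∫ x in A, max (⟪u, x⟫ - s) 0 ∂stdGaussian E ≤ psiBar s := by
    refine le_trans (setIntegral_le_integral hI
      (Filter.Eventually.of_forall (fun x => le_max_right _ _))) ?_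
    have : ∫ x, max (⟪u, x⟫ - s) 0 ∂stdGaussian E = ∫ t, max (t - s) 0 ∂(gaussianReal 0 1) := by
      rw [← hlaw, integral_map (by fun_prop) (by fun_prop)]
    rw [this]
    exact psi_le_psiBar s hs
  simp only [integral_const, smul_eq_mul, measureReal_restrict_apply_univ] at h2
  rw [h1] at h2
  linarith

end Vale.Agent.P226
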