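import Mathlib
import Vale.Agent.P226.HalfSpace

open Real

namespace Vale.Agent.P226

lemma small_num' (a : ℝ) (ha : 0 < a) (ha' : a ≤ 1 / 16) :
    2 * a ^ 2 * Real.log (1 / a) ≤ 0.3466 * a := by
  have h1 : Real.log (1 / a) = Real.log 16 + Real.log (1 / (16 * a)) := by
    rw [← Real.log_mul (by norm_num) (by positivity)]
    congr 1
    field_simp
  have h2 : Real.log (1 / (16 * a)) ≤ 1 / (16 * a) - 1 :=
    Real.log_le_sub_one_of_pos (by positivity)
  have h3 : Real.log 16 = 4 * Real.log 2 := by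
    rw [show (16 : ℝ) = 2 ^ 4 by norm_num, Real.log_pow]
    norm_num
  have h4 := Real.log_two_lt_d9
  have h5 := Real.log_two_gt_d9
  have h6 : a * Real.log (1 / a) ≤ Real.log 16 / 16 := by
    have e : a * (1 / (16 * a) - 1) = 1 / 16 - a := by field_simp
    have : a * Real.log (1 / a) ≤ a * Real.log 16 + (1 / 16 - a) := by
      rw [h1, mul_add, ← e]
      have := mul_le_mul_of_nonneg_left h2 ha.le
      linarith
    have h7 : a * (Real.log 16 - 1) ≤ 1 / 16 * (Real.log 16 - 1) :=
      mul_le_mul_of_nonneg_right ha' (by rw [h3]; linarith)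
    linarith
  have h9 : 2 * (a * Real.log (1 / a)) ≤ 0.3466 := by
    rw [h3] at h6
    linarith
  calc 2 * a ^ 2 * Real.log (1 / a) = (2 * (a * Real.log (1 / a))) * a := by ring
    _ ≤ 0.3466 * a := mul_le_mul_of_nonneg_right h9 ha.le

/-- one segment of the numerical verification -/
lemma segment (n a s β C lo hi : ℝ) (hn : 0 ≤ n) (hs : 0 ≤ s) (hβ : 0 ≤ β) (hlo0 : 0 ≤ lo)
    (hlo : lo ≤ a) (hhi : a ≤ hi) (h : n ≤ s * a + β)
    (qlo : (s * lo + β) ^ 2 ≤ C * lo) (qhi : (s * hi + β) ^ 2 ≤ C * hi) :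
    n ^ 2 ≤ C * a := by
  have ha0 : 0 ≤ a := hlo0.trans hlo
  have h1 : n ^ 2 ≤ (s * a + β) ^ 2 := by
    have : 0 ≤ s * a + β := by positivity
    nlinarith
  refine h1.trans ?_
  rcases eq_or_lt_of_le (hlo.trans hhi) with heq | hlt
  · have : a = lo := le_antisymm (heq ▸ hhi) hlo
    rw [this]
    exact qlo
  -- convexity: a = (1-t) lo + t hi
  have hd : 0 < hi - lo := by linarith
  set t := (a - lo) / (hi - lo) with ht
  have ht0 : 0 ≤ t := div_nonneg (by linarith) hd.le
  have ht1 : t ≤ 1 := by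
    rw [ht, div_le_one hd]
    linarith
  have hat : a = (1 - t) * lo + t * hi := by
    rw [ht]
    field_simp
    ring
  have hconv : (s * a + β) ^ 2 ≤ (1 - t) * (s * lo + β) ^ 2 + t * (s * hi + β) ^ 2 := by
    rw [hat]
    nlinarith [mul_nonneg (mul_nonneg ht0 (sub_nonneg.2 ht1)) (sq_nonneg (s * lo - s * hi))]
  calc (s * a + β) ^ 2 ≤ (1 - t) * (s * lo + β) ^ 2 + t * (s * hi + β) ^ 2 := hconv
    _ ≤ (1 - t) * (C * lo) + t * (C * hi) := by
        have := mul_le_mul_of_nonneg_left qlo (sub_nonneg.2 ht1)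
        have := mul_le_mul_of_nonneg_left qhi ht0
        linarith
    _ = C * a := by rw [hat]; ring

lemma num_universal (n a : ℝ) (hn : 0 ≤ n) (ha1 : a ≤ 1) (ha16 : 1 / 16 ≤ a)
    (hshift : ∀ s : ℝ, 0 ≤ s → n ≤ s * a + psiBar s) : n ^ 2 ≤ 0.405 * a := by
  rcases le_total a 0.22 with h1 | h1
  · exact segment n a 0.89 (psiBar 0.89) 0.405 (1 / 16) 0.22 hn (by norm_num)
      (by unfold psiBar; norm_num) (by norm_num) ha16 h1 (hshift _ (by norm_num))
      (by unfold psiBar; norm_num) (by unfold psiBar; norm_num)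
  rcases le_total a 0.26 with h2 | h2
  · exact segment n a 0.65 (psiBar 0.65) 0.405 0.22 0.26 hn (by norm_num)
      (by unfold psiBar; norm_num) (by norm_num) h1 h2 (hshift _ (by norm_num))
      (by unfold psiBar; norm_num) (by unfold psiBar; norm_num)
  rcases le_total a 0.271 with h3 | h3
  · exact segment n a 0.62 (psiBar 0.62) 0.405 0.26 0.271 hn (by norm_num)
      (by unfold psiBar; norm_num) (by norm_num) h2 h3 (hshift _ (by norm_num))
      (by unfold psiBar; norm_num) (by unfold psiBar; norm_num)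
  rcases le_total a 0.292 with h4 | h4
  · exact segment n a 0.6 (psiBar 0.6) 0.405 0.271 0.292 hn (by norm_num)
      (by unfold psiBar; norm_num) (by norm_num) h3 h4 (hshift _ (by norm_num))
      (by unfold psiBar; norm_num) (by unfold psiBar; norm_num)
  rcases le_total a 0.5 with h5 | h5
  · exact segment n a 0.5 (psiBar 0.5) 0.405 0.292 0.5 hn (by norm_num)
      (by unfold psiBar; norm_num) (by norm_num) h4 h5 (hshift _ (by norm_num))
      (by unfold psiBar; norm_num) (by unfold psiBar; norm_num)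
  · exact segment n a 0 (psiBar 0) 0.405 0.5 1 hn (by norm_num)
      (by unfold psiBar; norm_num) (by norm_num) h5 ha1 (hshift _ (by norm_num))
      (by unfold psiBar; norm_num) (by unfold psiBar; norm_num)

lemma num_seventh (n a : ℝ) (hn : 0 ≤ n) (ha1 : a ≤ 1 / 7) (ha16 : 1 / 16 ≤ a)
    (hshift : ∀ s : ℝ, 0 ≤ s → n ≤ s * a + psiBar s) : n ^ 2 ≤ 0.358098 * a :=
  segment n a 1.07 (psiBar 1.07) 0.358098 (1 / 16) (1 / 7) hn (by norm_num)
      (by unfold psiBar; norm_num) (by norm_num) ha16 ha1 (hshift _ (by norm_num))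
      (by unfold psiBar; norm_num) (by unfold psiBar; norm_num)

lemma propeller_const_ge : (0.358098 : ℝ) ≤ 9 / (8 * π) := by
  rw [le_div_iff₀ (by positivity)]
  have := Real.pi_lt_d6
  linarith

end Vale.Agent.P226
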